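import Mathlib
import Vale.Agent.Lib.P248.helper25.ABDefs

/-!
# P248, pool job 327 (AB1): the anti-blocking dual of a Good set is Good
-/

namespace Vale.Agent.Lib.P248.H68

open Vale.Agent.Lib.P248.H25 MeasureTheory
open scoped ENNReal

theorem good_dual {n : ℕ} {A : Set (Fin n → ℝ)} {ε R : ℝ} (h : Good A ε R) :
    Good (dual A) (1 / (n * |R| + 1)) (1 / ε) := by
  have hden : (0 : ℝ) < n * |R| + 1 := by positivity
  refine ⟨?_, ?_, ⟨?_, ?_⟩, ?_, ?_, ?_⟩
  · -- closed
    have h1 : dual A = (⋂ i : Fin n, {y : Fin n → ℝ | 0 ≤ y i}) ∩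
        ⋂ x ∈ A, {y : Fin n → ℝ | ∑ i, x i * y i ≤ 1} := by
      ext y
      simp [dual]
    rw [h1]
    apply IsClosed.inter
    · apply isClosed_iInter
      intro i
      exact isClosed_le continuous_const (continuous_apply i)
    · apply isClosed_iInter
      intro x
      apply isClosed_iInter
      intro _
      apply isClosed_le _ continuous_const
      apply continuous_finsetSum
      intro i _
      exact continuous_const.mul (continuous_apply i)
  · -- convex
    intro y hy y' hy' a b ha hb hab
    refine ⟨fun i => ?_, fun x hx => ?_⟩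
    · have h1 := hy.1 i
      have h2 := hy'.1 i
      simp only [Pi.add_apply, Pi.smul_apply, smul_eq_mul]
      positivity
    · have h1 := hy.2 x hx
      have h2 := hy'.2 x hx
      have e : ∑ i, x i * (a • y + b • y') i =
          a * ∑ i, x i * y i + b * ∑ i, x i * y' i := by
        rw [Finset.mul_sum, Finset.mul_sum, ← Finset.sum_add_distrib]
        apply Finset.sum_congr rfl
        intro i _
        simp only [Pi.add_apply, Pi.smul_apply, smul_eq_mul]
        ring
      rw [e]
      nlinarith
  · -- nonnegative coordinates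
    intro y hy i
    exact hy.1 i
  · -- down-set
    intro y hy y' hy'
    refine ⟨fun i => (hy' i).1, fun x hx => ?_⟩
    have h1 := hy.2 x hx
    have h2 : ∑ i, x i * y' i ≤ ∑ i, x i * y i := by
      apply Finset.sum_le_sum
      intro i _
      exact mul_le_mul_of_nonneg_left (hy' i).2 (h.ab.1 x hx i)
    linarith
  · -- eps_pos
    positivity
  · -- cube
    intro y hy
    refine ⟨fun i => (hy i).1, fun x hx => ?_⟩
    have h1 : ∑ i, x i * y i ≤ ∑ _i : Fin n, |R| * (1 / (n * |R| + 1)) := by
      apply Finset.sum_le_sum
      intro i _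
      have hx0 := h.ab.1 x hx i
      have hxR : x i ≤ |R| := le_trans (h.bdd x hx i) (le_abs_self R)
      exact mul_le_mul hxR (hy i).2 (hy i).1 (abs_nonneg R)
    have h2 : ∑ _i : Fin n, |R| * (1 / (n * |R| + 1)) = n * |R| / (n * |R| + 1) := by
      rw [Finset.sum_const, Finset.card_univ, Fintype.card_fin, nsmul_eq_mul]
      ring
    have h3 : (n : ℝ) * |R| / (n * |R| + 1) ≤ 1 := by
      rw [div_le_one hden]
      linarith
    linarith
  · -- bdd
    intro y hy i
    have hx : (fun j => if j = i then ε else 0 : Fin n → ℝ) ∈ A := by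
      apply h.cube
      intro j
      by_cases hj : j = i
      · simp [hj, h.eps_pos.le]
      · simp [hj, h.eps_pos.le]
    have h1 := hy.2 _ hx
    have h2 : ∑ j, (fun j => if j = i then ε else 0 : Fin n → ℝ) j * y j = ε * y i := by
      rw [Finset.sum_eq_single i]
      · simp
      · intro j _ hj
        simp [hj]
      · intro hi
        exact absurd (Finset.mem_univ i) hi
    rw [h2] at h1
    rw [le_div_iff₀ h.eps_pos]
    linarith

end Vale.Agent.Lib.P248.H68
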