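import Mathlib
import Vale.Agent.Lib.P248.helper1.ConeDefs

namespace Vale.Agent.Lib.P248.H68Y

open MeasureTheory Set
open scoped ENNReal
open Vale.Agent.Lib.P248.H1

theorem hasFDerivAt_proj {m : ℕ} (z y : EuclideanSpace ℝ (Fin m))
    (hne : (1 : ℝ) - inner ℝ z y ≠ 0) :
    HasFDerivAt (fun y : EuclideanSpace ℝ (Fin m) => (1 - inner ℝ z y)⁻¹ • y)
      ((1 - inner ℝ z y)⁻¹ • ContinuousLinearMap.id ℝ (EuclideanSpace ℝ (Fin m))
        + (-((1 - inner ℝ z y) ^ 2)⁻¹ • -(innerSL ℝ z)).smulRight y) y := by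
  have h1 : HasFDerivAt (fun y : EuclideanSpace ℝ (Fin m) => (1 : ℝ) - inner ℝ z y)
      (-(innerSL ℝ z)) y :=
    ((innerSL ℝ z).hasFDerivAt).const_sub 1
  have h2 : HasFDerivAt (fun y : EuclideanSpace ℝ (Fin m) => ((1 : ℝ) - inner ℝ z y)⁻¹)
      (-((1 - inner ℝ z y) ^ 2)⁻¹ • -(innerSL ℝ z)) y :=
    HasDerivAt.comp_hasFDerivAt y (hasDerivAt_inv hne) h1
  have h3 := h2.smul (hasFDerivAt_id y)
  exact h3

theorem det_proj {m : ℕ} (z y : EuclideanSpace ℝ (Fin m))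
    (hne : (1 : ℝ) - inner ℝ z y ≠ 0) :
    ((1 - inner ℝ z y)⁻¹ • ContinuousLinearMap.id ℝ (EuclideanSpace ℝ (Fin m))
        + (-((1 - inner ℝ z y) ^ 2)⁻¹ • -(innerSL ℝ z)).smulRight y).det
      = (1 - inner ℝ z y)⁻¹ ^ (m + 1) := by
  have hlin : (((1 - inner ℝ z y)⁻¹ • ContinuousLinearMap.id ℝ (EuclideanSpace ℝ (Fin m))
        + (-((1 - inner ℝ z y) ^ 2)⁻¹ • -(innerSL ℝ z)).smulRight y :
          EuclideanSpace ℝ (Fin m) →L[ℝ] EuclideanSpace ℝ (Fin m)) :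
          EuclideanSpace ℝ (Fin m) →ₗ[ℝ] EuclideanSpace ℝ (Fin m))
      = (1 - inner ℝ z y)⁻¹ • LinearMap.transvection
          ((1 - inner ℝ z y)⁻¹ • ((innerSL ℝ z : EuclideanSpace ℝ (Fin m) →L[ℝ] ℝ) :
            EuclideanSpace ℝ (Fin m) →ₗ[ℝ] ℝ)) y := by
    refine LinearMap.ext (fun x => ?_)
    simp only [ContinuousLinearMap.coe_coe, add_apply,
      smul_apply, ContinuousLinearMap.id_apply,
      ContinuousLinearMap.smulRight_apply, neg_apply, innerSL_apply_apply,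
      LinearMap.smul_apply, LinearMap.transvection.apply, smul_add, smul_smul, smul_eq_mul]
    congr 2
    field_simp
  show LinearMap.det _ = _
  rw [hlin, LinearMap.det_smul, LinearMap.transvection.det, finrank_euclideanSpace_fin]
  simp only [LinearMap.smul_apply, ContinuousLinearMap.coe_coe, innerSL_apply_apply, smul_eq_mul]
  rw [pow_succ]
  congr 1
  field_simp
  ring

theorem injOn_proj {m : ℕ} (z : EuclideanSpace ℝ (Fin m)) (T : Set (EuclideanSpace ℝ (Fin m)))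
    (hlt : ∀ y ∈ T, inner ℝ z y < 1) :
    InjOn (fun y : EuclideanSpace ℝ (Fin m) => (1 - inner ℝ z y)⁻¹ • y) T := by
  intro y hy y' hy' h
  have hpos : (0 : ℝ) < 1 - inner ℝ z y := by
    have := hlt y hy
    linarith
  have hpos' : (0 : ℝ) < 1 - inner ℝ z y' := by
    have := hlt y' hy'
    linarith
  have h0 : (1 - inner ℝ z y)⁻¹ • y = (1 - inner ℝ z y')⁻¹ • y' := h
  have h1 : inner ℝ z ((1 - inner ℝ z y)⁻¹ • y) = inner ℝ z ((1 - inner ℝ z y')⁻¹ • y') := by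
    rw [h0]
  rw [real_inner_smul_right, real_inner_smul_right] at h1
  have ht : inner ℝ z y = inner ℝ z y' := by
    field_simp at h1
    linarith
  rw [ht] at h0
  exact smul_right_injective _ (inv_ne_zero (ne_of_gt hpos')) h0

theorem volume_image_proj {m : ℕ} (z : EuclideanSpace ℝ (Fin m)) (T : Set (EuclideanSpace ℝ (Fin m))) (hT : MeasurableSet T) (hlt : ∀ y ∈ T, inner ℝ z y < 1) : volume ((fun y : EuclideanSpace ℝ (Fin m) => (1 - inner ℝ z y)⁻¹ • y) '' T) = ∫⁻ y in T, ENNReal.ofReal ((1 - inner ℝ z y)⁻¹ ^ (m + 1)) := by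
  have hne : ∀ y ∈ T, (1 : ℝ) - inner ℝ z y ≠ 0 := by
    intro y hy
    have := hlt y hy
    exact ne_of_gt (by linarith)
  have hmain := lintegral_abs_det_fderiv_eq_addHaar_image
    (μ := (volume : Measure (EuclideanSpace ℝ (Fin m)))) hT
    (f := fun y : EuclideanSpace ℝ (Fin m) => (1 - inner ℝ z y)⁻¹ • y)
    (f' := fun y => (1 - inner ℝ z y)⁻¹ • ContinuousLinearMap.id ℝ (EuclideanSpace ℝ (Fin m))
        + (-((1 - inner ℝ z y) ^ 2)⁻¹ • -(innerSL ℝ z)).smulRight y)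
    (fun y hy => (hasFDerivAt_proj z y (hne y hy)).hasFDerivWithinAt) (injOn_proj z T hlt)
  rw [← hmain]
  refine setLIntegral_congr_fun hT (fun y hy => ?_)
  show ENNReal.ofReal |((1 - inner ℝ z y)⁻¹ • ContinuousLinearMap.id ℝ (EuclideanSpace ℝ (Fin m))
        + (-((1 - inner ℝ z y) ^ 2)⁻¹ • -(innerSL ℝ z)).smulRight y).det|
      = ENNReal.ofReal ((1 - inner ℝ z y)⁻¹ ^ (m + 1))
  rw [det_proj z y (hne y hy)]
  have hpos : (0 : ℝ) < 1 - inner ℝ z y := by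
    have := hlt y hy
    linarith
  rw [abs_of_nonneg (pow_nonneg (inv_nonneg.mpr hpos.le) _)]

end Vale.Agent.Lib.P248.H68Y

namespace Vale.Agent.Lib.P248.H68Y.Check

open MeasureTheory Set
open scoped ENNReal

example : ∀ {m : ℕ} (z : EuclideanSpace ℝ (Fin m)) (T : Set (EuclideanSpace ℝ (Fin m))) (_ : MeasurableSet T) (_ : ∀ y ∈ T, inner ℝ z y < 1), volume ((fun y : EuclideanSpace ℝ (Fin m) => (1 - inner ℝ z y)⁻¹ • y) '' T) = ∫⁻ y in T, ENNReal.ofReal ((1 - inner ℝ z y)⁻¹ ^ (m + 1)) :=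
  @Vale.Agent.Lib.P248.H68Y.volume_image_proj

end Vale.Agent.Lib.P248.H68Y.Check
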