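import Mathlib
import Vale.Agent.Lib.P248.helper25.ABDefs

/-!
# P248, pool job 329 (AB3): the section of the anti-blocking dual is the dual of the section
-/

namespace Vale.Agent.Lib.P248.H68

open Vale.Agent.Lib.P248.H25 MeasureTheory
open scoped ENNReal

theorem sec_dual {n : ℕ} {A : Set (Fin (n + 1) → ℝ)} (h : AB A) (i : Fin (n + 1)) :
    sec (dual A) i = dual (sec A i) := by
  ext z'
  simp only [sec, dual, Set.mem_ofPred_eq]
  constructor
  · rintro ⟨hnn, hsum⟩
    refine ⟨fun k => ?_, fun z hz => ?_⟩
    · have := hnn (i.succAbove k)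
      simpa using this
    · have := hsum _ hz
      rw [Fin.sum_univ_succAbove _ i] at this
      simpa using this
  · rintro ⟨hnn, hsum⟩
    refine ⟨fun j => ?_, fun x hx => ?_⟩
    · rcases Fin.eq_self_or_eq_succAbove i j with rfl | ⟨k, rfl⟩
      · simp
      · simpa using hnn k
    · rw [Fin.sum_univ_succAbove _ i]
      simp only [Fin.insertNth_apply_same, mul_zero, zero_add, Fin.insertNth_apply_succAbove]
      have hz : (i.insertNth (0 : ℝ) (fun k => x (i.succAbove k)) : Fin (n + 1) → ℝ) ∈ A := by
        apply h.2 x hx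
        intro j
        rcases Fin.eq_self_or_eq_succAbove i j with rfl | ⟨k, rfl⟩
        · simpa using h.1 x hx j
        · simpa using h.1 x hx _
      exact hsum _ hz

end Vale.Agent.Lib.P248.H68
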